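/-
R166 Ham/Defs (leaf H0).  Hamiltonians of the chain.
  eVec d i          : unit vector e_i of Z^d
  wrap d n x        : representative of x mod (2n+1) in the box [-n,n]^d
  magn d l Lam      : total S^z of Lam
  torusHam d l n    : - sum over the edges (x, x+e_i) of the discrete torus [-n,n]^d = (Z/(2n+1))^d of S_x·S_y
  torusK d l n h    : torusHam - h * magn (box n)              (field h; the Gibbs weight of the crux is exp(-β torusK))
  orHam d l Lam     : free-boundary Hamiltonian written with oriented edges (x, x+e_i); equals `hamiltonian d l Lam` (Ham/Reindex)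
PROOF TEXT for the sorries (membership and selfadjointness): sums / negatives / real multiples of bond and spinZ:
  neg_mem, sum_mem, sub_mem, smul_mem, bond_mem_Loc, spinZ_mem_Loc, wrap_mem_box (Ham/Wrap is NOT imported here: prove
  `wrap d n y ∈ box d n` locally via mem_box, Int.emod_nonneg, Int.emod_lt_of_pos, omega);
  IsSelfAdjoint: IsSelfAdjoint.neg, isSelfAdjoint_sum (or induction), IsSelfAdjoint.sub, real smul: IsSelfAdjoint.smul (conj_ofReal) .
Helper lemmas: prefix `hd_`.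
-/
import Claimed.Agent.R166.Spin.Bond

set_option autoImplicit false
set_option linter.unusedSectionVars false

namespace Claimed.Agent.R166

open Claims.C0296.Heisenberg
open scoped Classical

noncomputable section

variable (d ℓ : ℕ)

/-- unit vector. -/
def eVec (i : Fin d) : Site d := Pi.single i 1

/-- representative mod `2n+1` in `[-n,n]^d`. -/
def wrap (n : ℕ) (x : Site d) : Site d := fun i => (x i + n) % (2 * (n : ℤ) + 1) - n

/-- total `S^z`. -/
def magn (Λ : Finset (Site d)) : QuasiLocal d ℓ := ∑ x ∈ Λ, spinZ d ℓ x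

/-- Heisenberg ferromagnet on the discrete torus `[-n,n]^d`. -/
def torusHam (n : ℕ) : QuasiLocal d ℓ :=
  -∑ x ∈ box d n, ∑ i : Fin d, bond d ℓ x (wrap d n (x + eVec d i))

/-- torus Hamiltonian with a magnetic field `h`. -/
def torusK (n : ℕ) (h : ℝ) : QuasiLocal d ℓ :=
  torusHam d ℓ n - (h : ℂ) • magn d ℓ (box d n)

/-- free boundary conditions, oriented edges. -/
def orHam (Λ : Finset (Site d)) : QuasiLocal d ℓ :=
  -∑ x ∈ Λ, ∑ i : Fin d, if x + eVec d i ∈ Λ then bond d ℓ x (x + eVec d i) else 0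

variable {d ℓ}

theorem magn_mem_Loc (Λ : Finset (Site d)) : magn d ℓ Λ ∈ Loc d ℓ Λ :=
  sum_mem fun _ hx => spinZ_mem_Loc hx

theorem orHam_mem_Loc (Λ : Finset (Site d)) : orHam d ℓ Λ ∈ Loc d ℓ Λ := by
  refine neg_mem (sum_mem fun x hx => sum_mem fun i _ => ?_)
  split_ifs with hy
  · exact bond_mem_Loc hx hy
  · exact zero_mem _

theorem hd_wrap_mem_box (n : ℕ) (y : Site d) : wrap d n y ∈ box d n := by
  rw [mem_box]
  intro i
  have h0 : (0 : ℤ) < 2 * (n : ℤ) + 1 := by positivity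
  have h1 := Int.emod_nonneg (y i + n) h0.ne'
  have h2 := Int.emod_lt_of_pos (y i + n) h0
  show -(n : ℤ) ≤ (y i + n) % (2 * (n : ℤ) + 1) - n ∧ (y i + n) % (2 * (n : ℤ) + 1) - n ≤ n
  constructor <;> omega

theorem hd_torusHam_mem_Loc (n : ℕ) : torusHam d ℓ n ∈ Loc d ℓ (box d n) :=
  neg_mem (sum_mem fun _ hx => sum_mem fun _ _ => bond_mem_Loc hx (hd_wrap_mem_box n _))

theorem hd_isSelfAdjoint_sum {ι : Type*} (s : Finset ι) (f : ι → QuasiLocal d ℓ)
    (hf : ∀ i ∈ s, IsSelfAdjoint (f i)) : IsSelfAdjoint (∑ i ∈ s, f i) := by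
  show star (∑ i ∈ s, f i) = ∑ i ∈ s, f i
  rw [star_sum]
  exact Finset.sum_congr rfl fun i hi => hf i hi

theorem torusK_mem_Loc (n : ℕ) (h : ℝ) : torusK d ℓ n h ∈ Loc d ℓ (box d n) :=
  sub_mem (hd_torusHam_mem_Loc n) ((Loc d ℓ (box d n)).smul_mem (magn_mem_Loc _) _)

theorem orHam_selfAdjoint (Λ : Finset (Site d)) : IsSelfAdjoint (orHam d ℓ Λ) := by
  refine IsSelfAdjoint.neg (hd_isSelfAdjoint_sum _ _ fun x _ => hd_isSelfAdjoint_sum _ _ fun i _ => ?_)
  split_ifs with hy
  · exact bond_selfAdjoint _ _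
  · exact IsSelfAdjoint.zero _

theorem torusK_selfAdjoint (n : ℕ) (h : ℝ) : IsSelfAdjoint (torusK d ℓ n h) := by
  refine IsSelfAdjoint.sub ?_ ?_
  · exact IsSelfAdjoint.neg (hd_isSelfAdjoint_sum _ _ fun x _ =>
      hd_isSelfAdjoint_sum _ _ fun i _ => bond_selfAdjoint _ _)
  · refine IsSelfAdjoint.smul ?_ (hd_isSelfAdjoint_sum _ _ fun x _ => spinZ_selfAdjoint x)
    exact Complex.conj_ofReal h

end

end Claimed.Agent.R166
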