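/-
R166 Ham/Reindex (leaf H2).  The frozen `hamiltonian d l Lam` (sum over `volumeEdges Lam`: ordered nearest-neighbour pairs (x,y) with
 WellOrderingRel x y) equals the oriented-edge form `orHam d l Lam`.
PROOF TEXT.  hamiltonian d ℓ Λ = -∑ e ∈ volumeEdges Λ, bond d ℓ e.1 e.2 by definition (rfl / unfold bond).
 orHam: ∑ x∈Λ ∑ i (if x+e_i ∈ Λ then bond x (x+e_i) else 0) = ∑ over the finset O := {(x,i) ∈ Λ ×ˢ univ | x+e_i ∈ Λ} of bond x (x+e_i)
 (Finset.sum_product', Finset.sum_filter).   Bijection O → volumeEdges Λ (Finset.sum_bij' or sum_nbij'):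
     (x,i) ↦ if WellOrderingRel x (x+e_i) then (x, x+e_i) else (x+e_i, x);     bond_comm makes the summands agree.
 Facts needed: (1) NearestNeighbor x y ↔ ∃ i, y = x + e_i ∨ x = y + e_i   (∑ |x j - y j| = 1 over ℤ: exactly one coordinate differs, by ±1:
     all terms are ≥ 0 integers; Finset.sum_eq_one_iff-style argument, or: there is j with |x j - y j| ≥ 1, the rest must vanish (Finset.sum_erase..)).
 (2) WellOrderingRel is a strict total order: trichotomous (IsTrichotomous / `trichotomous_of WellOrderingRel`), irreflexive, asymmetric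
     (IsWellOrder instance `WellOrderingRel.isWellOrder`), x ≠ x + e_i.
 (3) injectivity: (x,i) is recovered from the unordered pair {x, x+e_i}: x+e_i = x'+e_j & x = x' => i = j (Pi.single injective);
     x = x'+e_j & x+e_i = x' is impossible (e_i + e_j ≠ 0).
 This is the most fiddly bookkeeping leaf of the chain; split it with private helper lemmas.
Helper lemmas: prefix `ri_`.
-/
import Claimed.Agent.R166.Ham.Defs

set_option autoImplicit false
set_option linter.unusedSectionVars false

namespace Claimed.Agent.R166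

open Claims.C0296.Heisenberg
open scoped Classical

noncomputable section

variable {d ℓ : ℕ}

theorem ri_eVec_inj {i j : Fin d} (h : eVec d i = eVec d j) : i = j := by
  by_contra hij
  have h1 := congrFun h i
  simp [eVec, hij] at h1

theorem ri_eVec_ne_zero (i : Fin d) : eVec d i ≠ 0 := by
  intro h
  have h1 := congrFun h i
  simp [eVec] at h1

theorem ri_eVec_add_ne_zero (i j : Fin d) : eVec d i + eVec d j ≠ 0 := by
  intro h
  have h1 := congrFun h i
  simp only [eVec, Pi.add_apply, Pi.single_apply, Pi.zero_apply] at h1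
  split_ifs at h1 <;> omega

theorem ri_ne_add (x : Site d) (i : Fin d) : x ≠ x + eVec d i := by
  intro h
  exact ri_eVec_ne_zero i (by simpa using h.symm)

theorem ri_nn_of_add (x : Site d) (i : Fin d) : NearestNeighbor x (x + eVec d i) := by
  unfold NearestNeighbor
  have h1 : ∀ j : Fin d, |x j - (x + eVec d i) j| = if j = i then 1 else 0 := by
    intro j
    simp only [eVec, Pi.add_apply, Pi.single_apply]
    split_ifs <;> simp
  rw [Finset.sum_congr rfl (fun j _ => h1 j)]
  simp

theorem ri_nn_symm {x y : Site d} (h : NearestNeighbor x y) : NearestNeighbor y x := by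
  unfold NearestNeighbor at *
  rw [← h]
  exact Finset.sum_congr rfl (fun j _ => abs_sub_comm _ _)

theorem ri_nn_cases {x y : Site d} (h : NearestNeighbor x y) :
    ∃ i, y = x + eVec d i ∨ x = y + eVec d i := by
  unfold NearestNeighbor at h
  have hex : ∃ j, x j - y j ≠ 0 := by
    by_contra hcon
    have hcon' : ∀ j, x j - y j = 0 := fun j => by
      by_contra hj
      exact hcon ⟨j, hj⟩
    simp [hcon'] at h
  obtain ⟨j, hj⟩ := hex
  have hsplit := Finset.add_sum_erase Finset.univ (fun i => |x i - y i|) (Finset.mem_univ j)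
  have hnn : 0 ≤ ∑ i ∈ Finset.univ.erase j, |x i - y i| :=
    Finset.sum_nonneg (fun _ _ => abs_nonneg _)
  have h1 : 1 ≤ |x j - y j| := Int.one_le_abs hj
  have hrest : ∑ i ∈ Finset.univ.erase j, |x i - y i| = 0 := by linarith
  have habs : |x j - y j| = 1 := by linarith
  have hz : ∀ i, i ≠ j → x i = y i := by
    intro i hi
    have h2 := (Finset.sum_eq_zero_iff_of_nonneg (fun _ _ => abs_nonneg _)).1 hrest i
      (Finset.mem_erase.2 ⟨hi, Finset.mem_univ _⟩)
    have h3 := abs_eq_zero.1 h2
    omega
  refine ⟨j, ?_⟩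
  rcases (abs_eq (by norm_num)).1 habs with h' | h'
  · right
    funext i
    by_cases hi : i = j
    · subst hi
      simp only [eVec, Pi.add_apply, Pi.single_eq_same]
      omega
    · simp [eVec, hi, hz i hi]
  · left
    funext i
    by_cases hi : i = j
    · subst hi
      simp only [eVec, Pi.add_apply, Pi.single_eq_same]
      omega
    · simp [eVec, hi, hz i hi]

/-- the oriented-edge index set. -/
def riO (Λ : Finset (Site d)) : Finset (Site d × Fin d) :=
  (Λ ×ˢ (Finset.univ : Finset (Fin d))).filter fun p => p.1 + eVec d p.2 ∈ Λ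

/-- the bijection oriented edges → well-ordered edges. -/
def riMap (p : Site d × Fin d) : Site d × Site d :=
  if WellOrderingRel p.1 (p.1 + eVec d p.2) then (p.1, p.1 + eVec d p.2)
  else (p.1 + eVec d p.2, p.1)

theorem ri_wo_asymm {x y : Site d} (h : WellOrderingRel x y) : ¬ WellOrderingRel y x :=
  fun h' => asymm_of (WellOrderingRel (α := Site d)) h h'

theorem ri_wo_of_not {x y : Site d} (hne : x ≠ y) (h : ¬ WellOrderingRel x y) :
    WellOrderingRel y x := by
  rcases trichotomous_of (WellOrderingRel (α := Site d)) x y with h1 | h1 | h1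
  · exact absurd h1 h
  · exact absurd h1 hne
  · exact h1

theorem ri_orHam_eq (Λ : Finset (Site d)) :
    orHam d ℓ Λ = -∑ p ∈ riO Λ, bond d ℓ p.1 (p.1 + eVec d p.2) := by
  unfold orHam riO
  rw [Finset.sum_filter, Finset.sum_product]

theorem ri_map_mem {Λ : Finset (Site d)} {p : Site d × Fin d} (hp : p ∈ riO Λ) :
    riMap p ∈ volumeEdges Λ := by
  obtain ⟨x, i⟩ := p
  simp only [riO, Finset.mem_filter, Finset.mem_product, Finset.mem_univ, and_true] at hp
  unfold riMap volumeEdges
  simp only
  split_ifs with hw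
  · simp only [Finset.mem_filter, Finset.mem_product]
    exact ⟨⟨hp.1, hp.2⟩, ri_nn_of_add x i, hw⟩
  · simp only [Finset.mem_filter, Finset.mem_product]
    exact ⟨⟨hp.2, hp.1⟩, ri_nn_symm (ri_nn_of_add x i), ri_wo_of_not (ri_ne_add x i) hw⟩

theorem ri_map_inj {p q : Site d × Fin d} (h : riMap p = riMap q) : p = q := by
  obtain ⟨x, i⟩ := p
  obtain ⟨y, j⟩ := q
  unfold riMap at h
  simp only at h
  split_ifs at h with h1 h2 h2
  · have hxy : x = y := (Prod.mk.inj h).1
    subst hxy
    have h3 : eVec d i = eVec d j := add_left_cancel (Prod.mk.inj h).2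
    rw [ri_eVec_inj h3]
  · exfalso
    have ha : x = y + eVec d j := (Prod.mk.inj h).1
    have hb : x + eVec d i = y := (Prod.mk.inj h).2
    apply ri_eVec_add_ne_zero j i
    have h3 : y + (eVec d j + eVec d i) = y + 0 := by
      rw [add_zero, ← add_assoc, ← ha, hb]
    exact add_left_cancel h3
  · exfalso
    have ha : x + eVec d i = y := (Prod.mk.inj h).1
    have hb : x = y + eVec d j := (Prod.mk.inj h).2
    apply ri_eVec_add_ne_zero j i
    have h3 : y + (eVec d j + eVec d i) = y + 0 := by
      rw [add_zero, ← add_assoc, ← hb, ha]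
    exact add_left_cancel h3
  · have hxy : x = y := (Prod.mk.inj h).2
    subst hxy
    have h3 : eVec d i = eVec d j := add_left_cancel (Prod.mk.inj h).1
    rw [ri_eVec_inj h3]

theorem ri_map_surj {Λ : Finset (Site d)} {e : Site d × Site d} (he : e ∈ volumeEdges Λ) :
    ∃ p ∈ riO Λ, riMap p = e := by
  obtain ⟨x, y⟩ := e
  simp only [volumeEdges, Finset.mem_filter, Finset.mem_product] at he
  obtain ⟨⟨hx, hy⟩, hnn, hw⟩ := he
  obtain ⟨i, hi | hi⟩ := ri_nn_cases hnn
  · refine ⟨(x, i), ?_, ?_⟩
    · simp only [riO, Finset.mem_filter, Finset.mem_product, Finset.mem_univ, and_true]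
      exact ⟨hx, hi ▸ hy⟩
    · unfold riMap
      simp only
      rw [← hi, if_pos hw]
  · refine ⟨(y, i), ?_, ?_⟩
    · simp only [riO, Finset.mem_filter, Finset.mem_product, Finset.mem_univ, and_true]
      exact ⟨hy, hi ▸ hx⟩
    · unfold riMap
      simp only
      rw [← hi, if_neg (ri_wo_asymm hw)]

theorem ri_bond_map (p : Site d × Fin d) :
    bond d ℓ p.1 (p.1 + eVec d p.2) = bond d ℓ (riMap p).1 (riMap p).2 := by
  unfold riMap
  split_ifs with hw
  · rfl
  · exact bond_comm _ _

theorem hamiltonian_eq_orHam (Λ : Finset (Site d)) : hamiltonian d ℓ Λ = orHam d ℓ Λ := by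
  rw [ri_orHam_eq]
  have h1 : hamiltonian d ℓ Λ = -∑ e ∈ volumeEdges Λ, bond d ℓ e.1 e.2 := rfl
  rw [h1]
  congr 1
  symm
  exact Finset.sum_bij (fun p _ => riMap p) (fun p hp => ri_map_mem hp)
    (fun p _ q _ h => ri_map_inj h) (fun e he => by
      obtain ⟨p, hp, hpe⟩ := ri_map_surj he
      exact ⟨p, hp, hpe⟩) (fun p _ => ri_bond_map p)

theorem hamiltonian_mem_Loc (Λ : Finset (Site d)) : hamiltonian d ℓ Λ ∈ Loc d ℓ Λ := by
  rw [hamiltonian_eq_orHam]; exact orHam_mem_Loc Λ

theorem hamiltonian_selfAdjoint (Λ : Finset (Site d)) : IsSelfAdjoint (hamiltonian d ℓ Λ) := by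
  rw [hamiltonian_eq_orHam]; exact orHam_selfAdjoint Λ

end

end Claimed.Agent.R166
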