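/-
R166 Ham/Wrap (leaf H1).  Arithmetic of `wrap` (integers mod 2n+1 with representatives in [-n,n]).
PROOF TEXT.  Everything is coordinatewise (funext i / mem_box) and then a statement about Int.emod with N = 2n+1 > 0:
  wrap_mem_box: 0 ≤ (a+n) % N < N (Int.emod_nonneg, Int.emod_lt_of_pos), omega.
  wrap_eq_self: -n ≤ a ≤ n => (a+n) % N = a+n (Int.emod_eq_of_lt), omega.
  wrap_add_wrap: ((a + ((b+n)%N - n)) + n) % N = ((a+b)+n) % N: Int.emod_emod_of_dvd / Int.add_emod, Int.emod_emod; `Int.emod_emod_of_dvd`, or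
     use Int.emod_emod_eq... ; a robust way: (b+n)%N = b+n - N*((b+n)/N) (Int.emod_def), then Int.add_mul_emod_self / Int.sub_mul_emod_self.
  wrap_inj_on: if x,y ∈ box and wrap (a+x) = wrap (a+y) then x = y:  apply wrap (-a + ·) to both sides and use wrap_add_wrap, wrap_eq_self.
  wrap_ne_of_not_mem (boundary): if x ∈ box n and x + e_i ∉ box n then (x i = n) and (wrap (x+e_i)) i = -n.
Helper lemmas: prefix `wr_`.
-/
import Claimed.Agent.R166.Ham.Defs

set_option autoImplicit false
set_option linter.unusedSectionVars false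

namespace Claimed.Agent.R166

open Claims.C0296.Heisenberg
open scoped Classical

noncomputable section

variable {d : ℕ}

theorem wrap_mem_box (n : ℕ) (x : Site d) : wrap d n x ∈ box d n := by
  rw [mem_box]
  intro i
  have hN : (0 : ℤ) < 2 * (n : ℤ) + 1 := by positivity
  have h1 := Int.emod_nonneg (x i + n) hN.ne'
  have h2 := Int.emod_lt_of_pos (x i + n) hN
  simp only [wrap]
  omega

theorem wrap_eq_self {n : ℕ} {x : Site d} (hx : x ∈ box d n) : wrap d n x = x := by
  rw [mem_box] at hx
  funext i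
  have := hx i
  simp only [wrap]
  rw [Int.emod_eq_of_lt (by omega) (by omega)]
  omega

theorem wrap_add_wrap (n : ℕ) (a x : Site d) : wrap d n (a + wrap d n x) = wrap d n (a + x) := by
  funext i
  simp only [wrap, Pi.add_apply]
  congr 1
  have e : a i + ((x i + n) % (2 * (n : ℤ) + 1) - n) + n = a i + (x i + n) % (2 * (n : ℤ) + 1) := by ring
  rw [e, Int.add_emod, Int.emod_emod_of_dvd _ dvd_rfl, ← Int.add_emod]
  congr 1
  ring

theorem wrap_wrap_add (n : ℕ) (a x : Site d) : wrap d n (wrap d n x + a) = wrap d n (x + a) := by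
  rw [add_comm, wrap_add_wrap, add_comm]

theorem wrap_inj_on {n : ℕ} (a : Site d) {x y : Site d} (hx : x ∈ box d n) (hy : y ∈ box d n)
    (h : wrap d n (a + x) = wrap d n (a + y)) : x = y := by
  have h1 : wrap d n (-a + wrap d n (a + x)) = wrap d n (-a + wrap d n (a + y)) := by rw [h]
  rw [wrap_add_wrap, wrap_add_wrap, neg_add_cancel_left, neg_add_cancel_left, wrap_eq_self hx,
    wrap_eq_self hy] at h1
  exact h1

theorem boundary_of_not_mem {n : ℕ} {x : Site d} {i : Fin d} (hx : x ∈ box d n)
    (h : x + eVec d i ∉ box d n) : x i = n ∧ (wrap d n (x + eVec d i)) i = -(n : ℤ) := by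
  rw [mem_box] at hx h
  push Not at h
  obtain ⟨j, hj⟩ := h
  have hji : j = i := by
    by_contra hne
    have : (x + eVec d i) j = x j := by
      simp [eVec, hne]
    rw [this] at hj
    have := hx j
    omega
  subst hji
  have e1 : (x + eVec d j) j = x j + 1 := by simp [eVec]
  rw [e1] at hj
  have hxj := hx j
  have hxn : x j = n := by omega
  refine ⟨hxn, ?_⟩
  simp only [wrap, e1, hxn]
  have : (n : ℤ) + 1 + n = 2 * (n : ℤ) + 1 := by ring
  rw [this, Int.emod_self]
  ring

end

end Claimed.Agent.R166
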