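/-
R166 Ham/AdEq (leaves H5, H6).  On elements that are local in box s, the commutator with any of the big Hamiltonians (n ≥ s+1) equals the commutator
 with the Hamiltonian of box (s+1) (minus the field term of box s).
PROOF TEXT.  General principle: if R commutes with B then ad (K + R) B = ad K B (add_ad, ad_eq_zero_of_commute).
 A bond x y with x ∉ box s and y ∉ box s commutes with B ∈ Loc (box s): bond ∈ Loc {x,y} (bond_mem_Loc), Disjoint {x,y} (box s), Loc_comm.
 A finite sum of elements commuting with B commutes with B (Finset.sum_mul, Finset.mul_sum / Commute.sum_left).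
 H5 (free box), via orHam (hamiltonian_eq_orHam):  orHam (box n) - orHam (box (s+1)) = - sum over (x,i), x ∈ box n, x+e_i ∈ box n, not (x ∈ box (s+1) ∧ x+e_i ∈ box (s+1))
   of bond x (x+e_i).  For such (x,i): x ∉ box s (otherwise x, x+e_i ∈ box (s+1)) and x+e_i ∉ box s (otherwise x = (x+e_i) - e_i ∈ box (s+1)).
   Practical route: show termwise  ad(term_n (x,i)) B = ad(term_{s+1} (x,i)) B  after extending the sum over box (s+1) to box n
   (Finset.sum_subset (box_mono ..), terms with x ∉ box (s+1) have ... ) -- or split the sum with Finset.sum_filter.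
 H6 (torus + field): torusK n h = torusHam n - h • magn (box n).
   magn (box n) - magn (box s) = sum over x ∈ box n \ box s of spinZ x, commutes with B (spinZ_mem_Loc, Disjoint {x} (box s)).  (Finset.sum_sdiff.)
   torusHam n vs orHam (box (s+1)): term (x,i): if x + e_i ∈ box n then wrap (x+e_i) = x+e_i (wrap_eq_self) and we are in the situation of H5;
   if x + e_i ∉ box n then x i = n and (wrap (x+e_i)) i = -n (boundary_of_not_mem), both endpoints are outside box s because s < n (mem_box).
Helper lemmas: prefix `ae_`.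
-/
import Claimed.Agent.R166.Ham.Wrap
import Claimed.Agent.R166.Ham.Reindex

set_option autoImplicit false
set_option linter.unusedSectionVars false

namespace Claimed.Agent.R166

open Claims.C0296.Heisenberg
open scoped Classical

noncomputable section

variable {d ℓ : ℕ}

theorem ae_neg_ad (K B : QuasiLocal d ℓ) : ad (-K) B = -ad K B := by
  simp only [ad, neg_mul, mul_neg]; abel

theorem ae_zero_ad (B : QuasiLocal d ℓ) : ad (0 : QuasiLocal d ℓ) B = 0 := by
  simp [ad]

theorem ae_sum_ad {ι : Type*} (S : Finset ι) (f : ι → QuasiLocal d ℓ) (B : QuasiLocal d ℓ) :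
    ad (∑ x ∈ S, f x) B = ∑ x ∈ S, ad (f x) B := by
  simp only [ad, Finset.sum_mul, Finset.mul_sum, Finset.sum_sub_distrib]

theorem ae_eVec_bounds (i j : Fin d) : 0 ≤ eVec d i j ∧ eVec d i j ≤ 1 := by
  unfold eVec
  rw [Pi.single_apply]
  split_ifs <;> simp

theorem ae_add_mem_box {s : ℕ} {x : Site d} (i : Fin d) (hx : x ∈ box d s) :
    x + eVec d i ∈ box d (s + 1) := by
  rw [mem_box] at hx ⊢
  intro j
  have h1 := hx j
  have h2 := ae_eVec_bounds (d := d) i j
  rw [Pi.add_apply]
  push_cast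
  constructor <;> linarith [h1.1, h1.2, h2.1, h2.2]

theorem ae_mem_box_of_add {s : ℕ} {x : Site d} (i : Fin d) (hx : x + eVec d i ∈ box d s) :
    x ∈ box d (s + 1) := by
  rw [mem_box] at hx ⊢
  intro j
  have h1 := hx j
  have h2 := ae_eVec_bounds (d := d) i j
  rw [Pi.add_apply] at h1
  push_cast
  constructor <;> linarith [h1.1, h1.2, h2.1, h2.2]

/-- a bond with both endpoints outside `box s` commutes with `Loc (box s)`. -/
theorem ae_bond_ad_zero {s : ℕ} {x y : Site d} (hx : x ∉ box d s) (hy : y ∉ box d s)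
    {B : QuasiLocal d ℓ} (hB : B ∈ Loc d ℓ (box d s)) : ad (bond d ℓ x y) B = 0 := by
  apply ad_eq_zero_of_commute
  have hdis : Disjoint ({x, y} : Finset (Site d)) (box d s) := by
    rw [Finset.disjoint_left]
    intro z hz
    simp only [Finset.mem_insert, Finset.mem_singleton] at hz
    rcases hz with h | h
    · rw [h]; exact hx
    · rw [h]; exact hy
  exact Loc_comm hdis (bond_mem_Loc (by simp) (by simp)) hB

theorem ae_ad_orHam (Λ : Finset (Site d)) (B : QuasiLocal d ℓ) :
    ad (orHam d ℓ Λ) B = -∑ x ∈ Λ, ∑ i : Fin d,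
      ad (if x + eVec d i ∈ Λ then bond d ℓ x (x + eVec d i) else 0) B := by
  unfold orHam
  rw [ae_neg_ad, ae_sum_ad]
  simp only [ae_sum_ad]

theorem ad_hamiltonian_box_eq {n s : ℕ} (hns : s + 1 ≤ n) {B : QuasiLocal d ℓ}
    (hB : B ∈ Loc d ℓ (box d s)) :
    ad (hamiltonian d ℓ (box d n)) B = ad (hamiltonian d ℓ (box d (s + 1))) B := by
  rw [hamiltonian_eq_orHam, hamiltonian_eq_orHam, ae_ad_orHam, ae_ad_orHam, neg_inj]
  have hsub : box d (s + 1) ⊆ box d n := box_mono hns
  have hsub' : box d s ⊆ box d (s + 1) := box_mono (Nat.le_succ s)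
  rw [← Finset.sum_subset hsub]
  · apply Finset.sum_congr rfl
    intro x _
    apply Finset.sum_congr rfl
    intro i _
    by_cases h1 : x + eVec d i ∈ box d (s + 1)
    · rw [if_pos h1, if_pos (hsub h1)]
    · rw [if_neg h1, ae_zero_ad]
      split_ifs
      · exact ae_bond_ad_zero (fun hx => h1 (ae_add_mem_box i hx)) (fun hy => h1 (hsub' hy)) hB
      · exact ae_zero_ad B
  · intro x _ hx
    apply Finset.sum_eq_zero
    intro i _
    split_ifs
    · exact ae_bond_ad_zero (fun h => hx (hsub' h)) (fun hy => hx (ae_mem_box_of_add i hy)) hB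
    · exact ae_zero_ad B

theorem ae_t_ad_spinZ_zero {s : ℕ} {B : QuasiLocal d ℓ} (hB : B ∈ Loc d ℓ (box d s))
    {x : Site d} (hx : x ∉ box d s) : ad (spinZ d ℓ x) B = 0 := by
  apply ad_eq_zero_of_commute
  have hb : spinZ d ℓ x ∈ Loc d ℓ ({x} : Finset (Site d)) := spinZ_mem_Loc (by simp)
  refine Loc_comm ?_ hb hB
  rw [Finset.disjoint_left]
  intro z hz
  rw [Finset.mem_singleton.1 hz]; exact hx

theorem ae_t_ad_magn {n s : ℕ} (hns : s ≤ n) {B : QuasiLocal d ℓ}
    (hB : B ∈ Loc d ℓ (box d s)) :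
    ad (magn d ℓ (box d n)) B = ad (magn d ℓ (box d s)) B := by
  unfold magn
  rw [ae_sum_ad, ae_sum_ad]
  symm
  apply Finset.sum_subset (box_mono hns)
  intro x _ hx
  exact ae_t_ad_spinZ_zero hB hx

theorem ae_t_ad_torusHam {n s : ℕ} (hns : s + 1 ≤ n) {B : QuasiLocal d ℓ}
    (hB : B ∈ Loc d ℓ (box d s)) :
    ad (torusHam d ℓ n) B = ad (orHam d ℓ (box d n)) B := by
  unfold torusHam orHam
  rw [ae_neg_ad, ae_neg_ad, ae_sum_ad, ae_sum_ad, neg_inj]
  apply Finset.sum_congr rfl
  intro x hx
  rw [ae_sum_ad, ae_sum_ad]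
  apply Finset.sum_congr rfl
  intro i _
  by_cases hxi : x + eVec d i ∈ box d n
  · rw [if_pos hxi, wrap_eq_self hxi]
  · rw [if_neg hxi]
    obtain ⟨h1, h2⟩ := boundary_of_not_mem hx hxi
    have hx' : x ∉ box d s := by
      intro hm
      have := (mem_box.1 hm i).2
      omega
    have hy' : wrap d n (x + eVec d i) ∉ box d s := by
      intro hm
      have := (mem_box.1 hm i).1
      omega
    rw [ae_bond_ad_zero hx' hy' hB, ae_zero_ad]

theorem ad_torusK_eq {n s : ℕ} (hns : s + 1 ≤ n) (h : ℝ) {B : QuasiLocal d ℓ}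
    (hB : B ∈ Loc d ℓ (box d s)) :
    ad (torusK d ℓ n h) B =
      ad (hamiltonian d ℓ (box d (s + 1))) B - (h : ℂ) • ad (magn d ℓ (box d s)) B := by
  unfold torusK
  rw [sub_ad, smul_ad, ae_t_ad_magn (by omega) hB, ae_t_ad_torusHam hns hB,
    ← hamiltonian_eq_orHam, ad_hamiltonian_box_eq hns hB]

end

end Claimed.Agent.R166
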