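/-
R166 Ham/Analytic (leaves H3, H4).  Local elements are uniformly analytic vectors for all the Hamiltonians of the chain,
 with the radius rad d l = 1 / (4 Jc (2d+1)), uniformly in the volume.
PROOF TEXT.  Both are instances of norm_adPow_le_of_interaction (Abs/ClsBound) with N = locNet d ℓ, J = Jc ℓ, D = 2d+1, and (rad)⁻¹ = 4*Jc*(2d+1) (inv_inv).
 H3 (torus + field).  Index type I = (Site d × Fin d) ⊕ Site d,  T = ((box d n) ×ˢ univ).disjSum (box d n),
    Φ (inl (x,i)) = - bond x (wrap (x+e_i)),  Y (inl (x,i)) = {x, wrap (x+e_i)};     Φ (inr x) = -((h:ℂ) • spinZ x),  Y (inr x) = {x}.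
    torusK = ∑ i∈T, Φ i : Finset.sum_disjSum, Finset.sum_product', sum_neg_distrib, smul_sum, sub_eq_add_neg.
    card Y ≤ 2 (Finset.card_le_two / card_insert_le);  norms: norm_neg, norm_bond_le, norm_smul, |h| ≤ 1, norm_spinZ_le_Jc.
    Degree: for a site z, {(x,i) ∈ box × univ : z = x ∨ z = wrap (x+e_i)} ⊆ image (fun i => (z,i)) univ ∪ image (fun i => (wrap (z - e_i), i)) univ
    (if z = wrap (x + e_i), x ∈ box, then x = wrap (z - e_i): wrap_wrap_add / wrap_eq_self), so ≤ 2d;  {x ∈ box : z = x} has ≤ 1 element.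
    (Finset.filter_disjSum / card_disjSum, Finset.card_image_le, card_union_le.)
 H4 (free box).  rw hamiltonian_eq_orHam.  I = Site d × Fin d, T = Λ ×ˢ univ, Φ (x,i) = -(if x+e_i ∈ Λ then bond x (x+e_i) else 0), Y (x,i) = {x, x+e_i}
    (0 ∈ Loc; norm_zero ≤ Jc).  Degree ≤ 2d ≤ 2d+1: x = z or x = z - e_i.
Helper lemmas: prefix `an_`.
-/
import Claimed.Agent.R166.Ham.Wrap
import Claimed.Agent.R166.Ham.Reindex
import Claimed.Agent.R166.Abs.ClsBound

set_option autoImplicit false
set_option linter.unusedSectionVars false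

namespace Claimed.Agent.R166

open Claims.C0296.Heisenberg
open scoped Classical

noncomputable section

/-- radius of analyticity of local observables (uniform in the volume). -/
def rad (d ℓ : ℕ) : ℝ := (4 * Jc ℓ * ((2 * d + 1 : ℕ) : ℝ))⁻¹

theorem rad_pos (d ℓ : ℕ) : 0 < rad d ℓ := by
  have := Jc_pos ℓ
  unfold rad
  positivity

variable {d ℓ : ℕ}

/-- interaction terms of the torus Hamiltonian with field. -/
def an_Φ (d ℓ n : ℕ) (h : ℝ) : (Site d × Fin d) ⊕ Site d → QuasiLocal d ℓ :=
  Sum.elim (fun p => - bond d ℓ p.1 (wrap d n (p.1 + eVec d p.2))) (fun x => -((h : ℂ) • spinZ d ℓ x))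

/-- supports of the interaction terms. -/
def an_Y (d n : ℕ) : (Site d × Fin d) ⊕ Site d → Finset (Site d) :=
  Sum.elim (fun p => {p.1, wrap d n (p.1 + eVec d p.2)}) (fun x => {x})

/-- index set. -/
def an_T (d n : ℕ) : Finset ((Site d × Fin d) ⊕ Site d) :=
  ((box d n) ×ˢ (Finset.univ : Finset (Fin d))).disjSum (box d n)

theorem an_torusK_eq (n : ℕ) (h : ℝ) : torusK d ℓ n h = ∑ i ∈ an_T d n, an_Φ d ℓ n h i := by
  unfold an_T an_Φ torusK torusHam magn
  rw [Finset.sum_disjSum]
  simp only [Sum.elim_inl, Sum.elim_inr]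
  rw [Finset.sum_product, Finset.sum_neg_distrib, Finset.smul_sum, sub_eq_add_neg]
  congr 1
  rw [← Finset.sum_neg_distrib]
  apply Finset.sum_congr rfl
  intro x _
  rw [Finset.sum_neg_distrib]

theorem an_degree (n : ℕ) (z : Site d) :
    ((an_T d n).filter (fun i => z ∈ an_Y d n i)).card ≤ 2 * d + 1 := by
  have hsub : (an_T d n).filter (fun i => z ∈ an_Y d n i) ⊆
      ((Finset.univ.image (fun i : Fin d => (z, i)) ∪
        Finset.univ.image (fun i : Fin d => (wrap d n (z - eVec d i), i))).image Sum.inl) ∪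
        ({z} : Finset (Site d)).image Sum.inr := by
    intro i hi
    rw [Finset.mem_filter] at hi
    obtain ⟨hT, hz⟩ := hi
    rcases i with ⟨x, j⟩ | x
    · apply Finset.mem_union_left
      apply Finset.mem_image_of_mem
      have hx : x ∈ box d n := by
        have := Finset.inl_mem_disjSum.mp hT
        exact (Finset.mem_product.mp this).1
      simp only [an_Y, Sum.elim_inl, Finset.mem_insert, Finset.mem_singleton] at hz
      rcases hz with rfl | hz
      · apply Finset.mem_union_left
        exact Finset.mem_image_of_mem _ (Finset.mem_univ j)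
      · apply Finset.mem_union_right
        have hxe : x = wrap d n (z - eVec d j) := by
          rw [hz, sub_eq_add_neg, wrap_wrap_add, add_neg_cancel_right, wrap_eq_self hx]
        rw [Finset.mem_image]
        exact ⟨j, Finset.mem_univ j, by rw [← hxe]⟩
    · apply Finset.mem_union_right
      simp only [an_Y, Sum.elim_inr, Finset.mem_singleton] at hz
      rw [hz]
      exact Finset.mem_image_of_mem _ (Finset.mem_singleton_self _)
  refine (Finset.card_le_card hsub).trans ?_
  refine (Finset.card_union_le _ _).trans ?_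
  have h1 : ((Finset.univ.image (fun i : Fin d => (z, i)) ∪
        Finset.univ.image (fun i : Fin d => (wrap d n (z - eVec d i), i))).image
          (Sum.inl : Site d × Fin d → (Site d × Fin d) ⊕ Site d)).card ≤ d + d := by
    refine Finset.card_image_le.trans ?_
    refine (Finset.card_union_le _ _).trans ?_
    have a1 : (Finset.univ.image (fun i : Fin d => (z, i))).card ≤ d := by
      refine Finset.card_image_le.trans ?_
      simp
    have a2 : (Finset.univ.image (fun i : Fin d => (wrap d n (z - eVec d i), i))).card ≤ d := by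
      refine Finset.card_image_le.trans ?_
      simp
    omega
  have h2 : (({z} : Finset (Site d)).image
      (Sum.inr : Site d → (Site d × Fin d) ⊕ Site d)).card ≤ 1 := by
    refine Finset.card_image_le.trans ?_
    simp
  omega

theorem norm_adPow_torusK_le (n : ℕ) {h : ℝ} (hh : |h| ≤ 1) (X : Finset (Site d))
    {B : QuasiLocal d ℓ} (hB : B ∈ Loc d ℓ X) (k : ℕ) :
    ‖adPow (torusK d ℓ n h) k B‖ ≤ (2 ^ X.card * ‖B‖) * k.factorial * ((rad d ℓ)⁻¹) ^ k := by
  have hrad : (rad d ℓ)⁻¹ = 4 * Jc ℓ * ((2 * d + 1 : ℕ) : ℝ) := by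
    unfold rad
    rw [inv_inv]
  rw [hrad, an_torusK_eq]
  refine norm_adPow_le_of_interaction (locNet (d := d) (ℓ := ℓ)) (an_T d n) (an_Φ d ℓ n h) (an_Y d n)
    (Jc_pos ℓ).le ?_ ?_ ?_ ?_ X B hB k
  · rintro (⟨x, j⟩ | x) _
    · exact neg_mem (bond_mem_Loc (Finset.mem_insert_self _ _)
        (Finset.mem_insert_of_mem (Finset.mem_singleton_self _)))
    · exact neg_mem ((Loc d ℓ _).smul_mem (spinZ_mem_Loc (Finset.mem_singleton_self _)) _)
  · rintro (⟨x, j⟩ | x) _
    · exact Finset.card_le_two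
    · simp [an_Y]
  · rintro (⟨x, j⟩ | x) _
    · simp only [an_Φ, Sum.elim_inl, norm_neg]
      exact norm_bond_le _ _
    · simp only [an_Φ, Sum.elim_inr, norm_neg, norm_smul, Complex.norm_real, Real.norm_eq_abs]
      calc |h| * ‖spinZ d ℓ x‖ ≤ 1 * ‖spinZ d ℓ x‖ := by gcongr
        _ = ‖spinZ d ℓ x‖ := one_mul _
        _ ≤ Jc ℓ := norm_spinZ_le_Jc x
  · intro z
    convert an_degree n z

theorem an_orHam_eq (Λ : Finset (Site d)) :
    orHam d ℓ Λ = ∑ p ∈ Λ ×ˢ (Finset.univ : Finset (Fin d)),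
      -(if p.1 + eVec d p.2 ∈ Λ then bond d ℓ p.1 (p.1 + eVec d p.2) else 0) := by
  unfold orHam
  rw [Finset.sum_product]
  simp only [Finset.sum_neg_distrib]

theorem an_free_degree (Λ : Finset (Site d)) (z : Site d) :
    ((Λ ×ˢ (Finset.univ : Finset (Fin d))).filter
      (fun p => z ∈ ({p.1, p.1 + eVec d p.2} : Finset (Site d)))).card ≤ 2 * d + 1 := by
  have hsub : (Λ ×ˢ (Finset.univ : Finset (Fin d))).filter
      (fun p => z ∈ ({p.1, p.1 + eVec d p.2} : Finset (Site d))) ⊆
      (Finset.univ : Finset (Fin d)).image (fun i => (z, i)) ∪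
        (Finset.univ : Finset (Fin d)).image (fun i => (z - eVec d i, i)) := by
    rintro ⟨x, i⟩ hp
    rw [Finset.mem_filter] at hp
    have h2 := hp.2
    simp only [Finset.mem_insert, Finset.mem_singleton] at h2
    rw [Finset.mem_union]
    rcases h2 with h | h
    · left
      rw [Finset.mem_image]
      exact ⟨i, Finset.mem_univ _, by rw [h]⟩
    · right
      rw [Finset.mem_image]
      refine ⟨i, Finset.mem_univ _, ?_⟩
      rw [h, add_sub_cancel_right]
  calc _ ≤ ((Finset.univ : Finset (Fin d)).image (fun i => (z, i)) ∪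
        (Finset.univ : Finset (Fin d)).image (fun i => (z - eVec d i, i))).card :=
        Finset.card_le_card hsub
    _ ≤ ((Finset.univ : Finset (Fin d)).image (fun i => (z, i))).card +
        ((Finset.univ : Finset (Fin d)).image (fun i => (z - eVec d i, i))).card :=
        Finset.card_union_le _ _
    _ ≤ d + d := by
        refine Nat.add_le_add ?_ ?_
        · exact Finset.card_image_le.trans (by simp)
        · exact Finset.card_image_le.trans (by simp)
    _ ≤ 2 * d + 1 := by omega

theorem norm_adPow_hamiltonian_le (Λ : Finset (Site d)) (X : Finset (Site d))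
    {B : QuasiLocal d ℓ} (hB : B ∈ Loc d ℓ X) (k : ℕ) :
    ‖adPow (hamiltonian d ℓ Λ) k B‖ ≤ (2 ^ X.card * ‖B‖) * k.factorial * ((rad d ℓ)⁻¹) ^ k := by
  rw [hamiltonian_eq_orHam, an_orHam_eq]
  have hrad : (rad d ℓ)⁻¹ = 4 * Jc ℓ * ((2 * d + 1 : ℕ) : ℝ) := by
    unfold rad
    rw [inv_inv]
  rw [hrad]
  refine norm_adPow_le_of_interaction (locNet d ℓ) (Λ ×ˢ (Finset.univ : Finset (Fin d)))
    (fun p => -(if p.1 + eVec d p.2 ∈ Λ then bond d ℓ p.1 (p.1 + eVec d p.2) else 0))
    (fun p => ({p.1, p.1 + eVec d p.2} : Finset (Site d))) (Jc_pos ℓ).le ?_ ?_ ?_ ?_ X B hB k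
  · intro p _
    show -(if p.1 + eVec d p.2 ∈ Λ then bond d ℓ p.1 (p.1 + eVec d p.2) else 0) ∈
      Loc d ℓ ({p.1, p.1 + eVec d p.2} : Finset (Site d))
    refine neg_mem ?_
    split_ifs
    · exact bond_mem_Loc (by simp) (by simp)
    · exact zero_mem _
  · intro p _
    exact Finset.card_le_two
  · intro p _
    rw [norm_neg]
    split_ifs
    · exact norm_bond_le _ _
    · rw [norm_zero]; exact (Jc_pos ℓ).le
  · intro z
    exact an_free_degree Λ z

end

end Claimed.Agent.R166
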